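import Mathlib
import Vale.Agent.Lib.P237.helper1.FrDefs
import Vale.Agent.Lib.P237.helper98.Mat
import Vale.Agent.Lib.P237.helper98.Sweep

/-!
# P237: three disjoint pieces inside the planar shadow of a frustum
-/

namespace Vale.Agent.Lib.P237.H77

open MeasureTheory Set Vale.Agent.Lib.P237

theorem chordFn_affine (e₁ e₂ e t : ℝ × ℝ) (lam : ℝ) :
    chordFn e₁ e₂ (lam • e + t) = lam * chordFn e₁ e₂ e + chordFn e₁ e₂ (lam • e₁ + t) := by
  simp only [chordFn, Prod.fst_add, Prod.snd_add, Prod.smul_fst, Prod.smul_snd, smul_eq_mul]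
  ring

theorem chordFn_param (e₁ e₂ t : ℝ × ℝ) (lam r s : ℝ) :
    chordFn e₁ e₂ (e₁ + r • (lam • e₁ + t - e₁) + s • (e₂ - e₁)) =
      r * chordFn e₁ e₂ (lam • e₁ + t) := by
  simp only [chordFn, Prod.fst_add, Prod.snd_add, Prod.smul_fst, Prod.smul_snd, smul_eq_mul,
    Prod.fst_sub, Prod.snd_sub]
  ring

theorem continuous_chordFn (e₁ e₂ : ℝ × ℝ) : Continuous (chordFn e₁ e₂) := by
  unfold chordFn
  fun_prop

/-- The trapezoid `{(r, s) | 0 < r < 1, 0 < s < 1 - (1 - lam) r}`. -/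
def trapT (lam : ℝ) : Set (ℝ × ℝ) :=
  regionBetween (fun _ => (0 : ℝ)) (fun r => 1 - (1 - lam) * r) (Ioo (0 : ℝ) 1)

theorem vol_trapT (lam : ℝ) (hl0 : 0 ≤ lam) :
    volume (trapT lam) = ENNReal.ofReal ((1 + lam) / 2) := by
  have hc : Continuous fun r : ℝ => 1 - (1 - lam) * r := by fun_prop
  have hgi : IntegrableOn (fun r : ℝ => 1 - (1 - lam) * r) (Ioo (0 : ℝ) 1) volume :=
    (hc.integrableOn_Icc (a := 0) (b := 1)).mono_set Ioo_subset_Icc_self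
  have hfi : IntegrableOn (fun _ : ℝ => (0 : ℝ)) (Ioo (0 : ℝ) 1) volume := integrableOn_zero
  have hfg : ∀ x ∈ Ioo (0 : ℝ) 1, (fun _ : ℝ => (0 : ℝ)) x ≤ (fun r : ℝ => 1 - (1 - lam) * r) x := by
    intro x hx
    have h1 : (1 - lam) * x ≤ 1 * x := mul_le_mul_of_nonneg_right (by linarith) hx.1.le
    show (0 : ℝ) ≤ 1 - (1 - lam) * x
    linarith [hx.2]
  unfold trapT
  rw [Measure.volume_eq_prod, volume_regionBetween_eq_integral hfi hgi measurableSet_Ioo hfg]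
  congr 1
  have e : ∀ y : ℝ, ((fun r : ℝ => 1 - (1 - lam) * r) - fun _ : ℝ => (0 : ℝ)) y =
      1 - (1 - lam) * y := fun y => by simp
  simp only [e]
  rw [← integral_Ioc_eq_integral_Ioo, ← intervalIntegral.integral_of_le zero_le_one]
  have hderiv : ∀ x ∈ uIcc (0 : ℝ) 1,
      HasDerivAt (fun r : ℝ => r - (1 - lam) * r ^ 2 / 2) (1 - (1 - lam) * x) x := by
    intro x _
    have h1 : HasDerivAt (fun r : ℝ => r) 1 x := hasDerivAt_id x
    have h2 : HasDerivAt (fun r : ℝ => (1 - lam) * r ^ 2 / 2) ((1 - lam) * x) x := by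
      have h3 := ((hasDerivAt_pow 2 x).const_mul (1 - lam)).div_const 2
      have e : (1 - lam) * ((2 : ℕ) * x ^ (2 - 1)) / 2 = (1 - lam) * x := by
        norm_num
        ring
      rw [← e]
      exact h3
    exact h1.sub h2
  rw [intervalIntegral.integral_eq_sub_of_hasDerivAt hderiv (hc.intervalIntegrable _ _)]
  ring

theorem trap_lower (E : Set (ℝ × ℝ)) (hEv : Convex ℝ E) (lam : ℝ) (hl0 : 0 ≤ lam) (hl1 : lam ≤ 1)
    (t e₁ e₂ : ℝ × ℝ) (h1 : e₁ ∈ E) (h2 : e₂ ∈ E)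
    (hδ : 0 < chordFn e₁ e₂ (lam • e₁ + t)) (W : Set (ℝ × ℝ))
    (hW1 : ∀ e ∈ W, chordFn e₁ e₂ e ≤ 0) (hW2 : ∀ e ∈ E, e ∉ W → 0 ≤ chordFn e₁ e₂ e) :
    volume (E ∩ W) + ENNReal.ofReal (lam ^ 2) * volume (E \ W)
        + ENNReal.ofReal ((1 + lam) / 2 * chordFn e₁ e₂ (lam • e₁ + t))
      ≤ volume (frSet E lam t) := by
  have _hl1 : lam ≤ 1 := hl1
  have hgc : Continuous (chordFn e₁ e₂) := continuous_chordFn e₁ e₂
  have hG1m : MeasurableSet {x : ℝ × ℝ | chordFn e₁ e₂ x ≤ 0} :=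
    (isClosed_le hgc continuous_const).measurableSet
  have hG3m : MeasurableSet {x : ℝ × ℝ | chordFn e₁ e₂ (lam • e₁ + t) ≤ chordFn e₁ e₂ x} :=
    (isClosed_le continuous_const hgc).measurableSet
  -- piece 1
  have hS1 : E ∩ W ⊆ frSet E lam t ∩ {x : ℝ × ℝ | chordFn e₁ e₂ x ≤ 0} := by
    rintro e ⟨heE, heW⟩
    exact ⟨⟨e, heE, 0, le_rfl, zero_le_one, by simp⟩, hW1 e heW⟩
  -- piece 3
  have hS3sub : (fun e : ℝ × ℝ => lam • e + t) '' (E \ W) ⊆
      (frSet E lam t \ {x : ℝ × ℝ | chordFn e₁ e₂ x ≤ 0}) ∩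
        {x : ℝ × ℝ | chordFn e₁ e₂ (lam • e₁ + t) ≤ chordFn e₁ e₂ x} := by
    rintro _ ⟨e, ⟨heE, heW⟩, rfl⟩
    have hge : 0 ≤ chordFn e₁ e₂ e := hW2 e heE heW
    have hval := chordFn_affine e₁ e₂ e t lam
    have h0 : 0 ≤ lam * chordFn e₁ e₂ e := mul_nonneg hl0 hge
    refine ⟨⟨⟨e, heE, 1, zero_le_one, le_rfl, by simp⟩, ?_⟩, ?_⟩
    · show ¬ (chordFn e₁ e₂ (lam • e + t) ≤ 0)
      rw [hval]
      linarith
    · show chordFn e₁ e₂ (lam • e₁ + t) ≤ chordFn e₁ e₂ (lam • e + t)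
      rw [hval]
      linarith
  have hS3vol : volume ((fun e : ℝ × ℝ => lam • e + t) '' (E \ W)) =
      ENNReal.ofReal (lam ^ 2) * volume (E \ W) := by
    have e1 : (fun e : ℝ × ℝ => lam • e + t) '' (E \ W) =
        shift ((fun p : ℝ × ℝ => (lam * p.1 + 0 * p.2, 0 * p.1 + lam * p.2)) '' (E \ W)) t := by
      unfold shift
      rw [image_image]
      refine image_congr fun p _ => ?_
      ext <;> simp
    rw [e1, vol_shift, vol_image_mat]
    have e2 : |lam * lam - 0 * 0| = lam ^ 2 := by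
      rw [mul_zero, sub_zero, ← sq, abs_of_nonneg (sq_nonneg lam)]
    rw [e2]
  -- piece 2
  have hS2sub : (fun p : ℝ × ℝ => e₁ + p.1 • (lam • e₁ + t - e₁) + p.2 • (e₂ - e₁)) '' trapT lam ⊆
      (frSet E lam t \ {x : ℝ × ℝ | chordFn e₁ e₂ x ≤ 0}) \
        {x : ℝ × ℝ | chordFn e₁ e₂ (lam • e₁ + t) ≤ chordFn e₁ e₂ x} := by
    rintro _ ⟨⟨r, s⟩, hp, rfl⟩
    obtain ⟨hr, hs⟩ := hp
    have hr0 : 0 < r := hr.1
    have hr1 : r < 1 := hr.2
    have hs0 : 0 < s := hs.1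
    have hs1 : s < 1 - (1 - lam) * r := hs.2
    have hval := chordFn_param e₁ e₂ t lam r s
    have hD : 0 < 1 - (1 - lam) * r := by
      have h1 : (1 - lam) * r ≤ 1 * r := mul_le_mul_of_nonneg_right (by linarith) hr0.le
      linarith
    refine ⟨⟨?_, ?_⟩, ?_⟩
    · -- membership in the frustum shadow
      set σ : ℝ := s / (1 - (1 - lam) * r) with hσ
      have hσ0 : 0 < σ := div_pos hs0 hD
      have hσ1 : σ < 1 := (div_lt_one hD).2 hs1
      have hσD : σ * (1 - (1 - lam) * r) = s := div_mul_cancel₀ s hD.ne'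
      have heE : (1 - σ) • e₁ + σ • e₂ ∈ E := hEv h1 h2 (by linarith) hσ0.le (by ring)
      refine ⟨(1 - σ) • e₁ + σ • e₂, heE, r, hr0.le, hr1.le, ?_⟩
      ext
      · simp only [Prod.fst_add, Prod.smul_fst, smul_eq_mul, Prod.fst_sub]
        linear_combination (-(e₂.1 - e₁.1)) * hσD
      · simp only [Prod.snd_add, Prod.smul_snd, smul_eq_mul, Prod.snd_sub]
        linear_combination (-(e₂.2 - e₁.2)) * hσD
    · show ¬ (chordFn e₁ e₂ (e₁ + r • (lam • e₁ + t - e₁) + s • (e₂ - e₁)) ≤ 0)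
      rw [hval]
      have : 0 < r * chordFn e₁ e₂ (lam • e₁ + t) := mul_pos hr0 hδ
      linarith
    · show ¬ (chordFn e₁ e₂ (lam • e₁ + t) ≤
        chordFn e₁ e₂ (e₁ + r • (lam • e₁ + t - e₁) + s • (e₂ - e₁)))
      rw [hval]
      have : r * chordFn e₁ e₂ (lam • e₁ + t) < 1 * chordFn e₁ e₂ (lam • e₁ + t) :=
        mul_lt_mul_of_pos_right hr1 hδ
      linarith
  have hS2vol : volume ((fun p : ℝ × ℝ => e₁ + p.1 • (lam • e₁ + t - e₁) + p.2 • (e₂ - e₁)) ''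
      trapT lam) = ENNReal.ofReal ((1 + lam) / 2 * chordFn e₁ e₂ (lam • e₁ + t)) := by
    have e1 : (fun p : ℝ × ℝ => e₁ + p.1 • (lam • e₁ + t - e₁) + p.2 • (e₂ - e₁)) '' trapT lam =
        shift ((fun p : ℝ × ℝ =>
          ((lam * e₁.1 + t.1 - e₁.1) * p.1 + (e₂.1 - e₁.1) * p.2,
            (lam * e₁.2 + t.2 - e₁.2) * p.1 + (e₂.2 - e₁.2) * p.2)) '' trapT lam) e₁ := by
      unfold shift
      rw [image_image]
      refine image_congr fun p _ => ?_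
      ext
      · simp only [Prod.fst_add, Prod.smul_fst, smul_eq_mul, Prod.fst_sub]
        ring
      · simp only [Prod.snd_add, Prod.smul_snd, smul_eq_mul, Prod.snd_sub]
        ring
    rw [e1, vol_shift, vol_image_mat, vol_trapT lam hl0]
    have e2 : |(lam * e₁.1 + t.1 - e₁.1) * (e₂.2 - e₁.2) - (e₂.1 - e₁.1) * (lam * e₁.2 + t.2 - e₁.2)|
        = chordFn e₁ e₂ (lam • e₁ + t) := by
      have e3 : (lam * e₁.1 + t.1 - e₁.1) * (e₂.2 - e₁.2) -
          (e₂.1 - e₁.1) * (lam * e₁.2 + t.2 - e₁.2) = -chordFn e₁ e₂ (lam • e₁ + t) := by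
        simp only [chordFn, Prod.fst_add, Prod.snd_add, Prod.smul_fst, Prod.smul_snd, smul_eq_mul]
        ring
      rw [e3, abs_neg, abs_of_pos hδ]
    rw [e2, ← ENNReal.ofReal_mul hδ.le, mul_comm]
  -- additivity
  have hsplit1 := measure_inter_add_sdiff (μ := volume) (frSet E lam t) hG1m
  have hsplit2 := measure_inter_add_sdiff (μ := volume)
    (frSet E lam t \ {x : ℝ × ℝ | chordFn e₁ e₂ x ≤ 0}) hG3m
  have hm1 := measure_mono (μ := volume) hS1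
  have hm3 := measure_mono (μ := volume) hS3sub
  have hm2 := measure_mono (μ := volume) hS2sub
  rw [hS3vol] at hm3
  rw [hS2vol] at hm2
  calc volume (E ∩ W) + ENNReal.ofReal (lam ^ 2) * volume (E \ W)
        + ENNReal.ofReal ((1 + lam) / 2 * chordFn e₁ e₂ (lam • e₁ + t))
      ≤ volume (frSet E lam t ∩ {x : ℝ × ℝ | chordFn e₁ e₂ x ≤ 0})
        + volume ((frSet E lam t \ {x : ℝ × ℝ | chordFn e₁ e₂ x ≤ 0}) ∩
            {x : ℝ × ℝ | chordFn e₁ e₂ (lam • e₁ + t) ≤ chordFn e₁ e₂ x})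
        + volume ((frSet E lam t \ {x : ℝ × ℝ | chordFn e₁ e₂ x ≤ 0}) \
            {x : ℝ × ℝ | chordFn e₁ e₂ (lam • e₁ + t) ≤ chordFn e₁ e₂ x}) :=
        add_le_add (add_le_add hm1 hm3) hm2
    _ = volume (frSet E lam t) := by
        rw [add_assoc, hsplit2, hsplit1]

end Vale.Agent.Lib.P237.H77
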